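import Crest.Agent.X212.Nva22.Alg
import Crest.Agent.X212.Nva22.Main
import Crest.Agent.X212.Rob53.Fo
import Crest.Agent.X212.Sw87.Fin
import Crest.Agent.X212.Rob53.Iso
import Crest.Agent.X212.Nv17.Iso
import Crest.Agent.X212.Nv17.Lbl
import Crest.Agent.X212.Cg28.Glu
import Crest.Agent.X212.Cg28.Geo
import Crest.Agent.X212.Tor17.Main
import Crest.Agent.X212.Cy83.Br
import Crest.Agent.X212.Cy83.Cy
import Crest.Agent.X212.Num57.Sig
import Crest.Agent.X212.Cv53.Main
import Crest.Agent.X212.Ar48.Main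
import Crest.Agent.X212.Nov93.Main
import Crest.Agent.X212.Nov93.Sgn
import Crest.Agent.X212.Int17.Main
import Crest.Agent.X212.Dr59.Hdl
import Crest.Agent.X212.Cg28.Main
import Crest.Agent.X212.Pos17.Main
import Crest.Agent.X212.Pos17.Out
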